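import Vale.Agent.P313.AC.SpecA
import Vale.Agent.P313.H296.LFx

/-!
Closure properties of first-order operators.

`NF`, `NP`: functions and predicates of numbers. `NX`, `NPX`: the same for functions of the input
word which depend on its length only, in the form `fun x a => …`, so that goals can be closed by
unification. `NXV`: vectors of such functions. `FO`: operators; all bound variables are written
directly, the body of a quantifier is `fun x X v => F x X (v 0) (Fin.tail v)`.
-/

namespace Vale.Agent.P313.AC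

open Finset

variable {m k l r : ℕ}

/-! ### Numeric functions and predicates -/

theorem NF.congr {F G : (Fin k → ℕ) → ℕ} (h : NF F) (e : ∀ a, F a = G a) : NF G :=
  LF.congr h (fun _ a => e a)

theorem NP.congr {P Q : (Fin k → ℕ) → Prop} (h : NP P) (e : ∀ a, P a ↔ Q a) : NP Q :=
  LFP.congr h (fun _ a => e a)

theorem NF.comp {F : (Fin r → ℕ) → ℕ} {s : Fin r → (Fin k → ℕ) → ℕ} (hF : NF F)
    (hs : ∀ i, NF (s i)) : NF (fun a => F (fun i => s i a)) :=
  LF.comp (f := fun _ a => F a) (g := fun i _ a => s i a) hF hs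

theorem NP.comp {P : (Fin r → ℕ) → Prop} {s : Fin r → (Fin k → ℕ) → ℕ} (hP : NP P)
    (hs : ∀ i, NF (s i)) : NP (fun a => P (fun i => s i a)) :=
  LF.comp (f := fun _ a => ind (P a)) (g := fun i _ a => s i a) hP hs

theorem NF.proj (i : Fin k) : NF (fun a => a i) := LF.proj i

theorem NF.const (c : ℕ) : NF (fun _ : Fin k → ℕ => c) := LF.const c

/-! ### Functions which depend on the length of the word -/

/-- Numeric functions of the length of the word and of `k` numbers. -/
def NX (t : List Bool → (Fin k → ℕ) → ℕ) : Prop :=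
  ∃ s : (Fin (k + 1) → ℕ) → ℕ, NF s ∧ ∀ x a, t x a = s (Fin.cons x.length a)

/-- Numeric predicates of the length of the word and of `k` numbers. -/
def NPX (P : List Bool → (Fin k → ℕ) → Prop) : Prop :=
  ∃ Q : (Fin (k + 1) → ℕ) → Prop, NP Q ∧ ∀ x a, P x a ↔ Q (Fin.cons x.length a)

/-- Vectors of numeric functions. -/
def NXV (t : List Bool → (Fin k → ℕ) → Fin r → ℕ) : Prop := ∀ i, NX (fun x a => t x a i)

theorem NX.congr {t t' : List Bool → (Fin k → ℕ) → ℕ} (h : NX t) (e : ∀ x a, t x a = t' x a) :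
    NX t' := by
  obtain ⟨s, hs, es⟩ := h
  exact ⟨s, hs, fun x a => by rw [← e, es]⟩

theorem NPX.congr {P P' : List Bool → (Fin k → ℕ) → Prop} (h : NPX P)
    (e : ∀ x a, P x a ↔ P' x a) : NPX P' := by
  obtain ⟨s, hs, es⟩ := h
  exact ⟨s, hs, fun x a => by rw [← e, es]⟩

theorem NX.len : NX (fun x (_ : Fin k → ℕ) => x.length) :=
  ⟨fun v => v 0, NF.proj 0, fun _ _ => rfl⟩

theorem NX.const (c : ℕ) : NX (fun _ (_ : Fin k → ℕ) => c) :=
  ⟨fun _ => c, NF.const c, fun _ _ => rfl⟩

theorem NX.proj (i : Fin k) : NX (fun _ a => a i) :=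
  ⟨fun v => v i.succ, NF.proj i.succ, fun _ _ => rfl⟩

/-- A numeric function of numeric functions. -/
theorem NX.app {f : (Fin r → ℕ) → ℕ} (hf : NF f) {t : List Bool → (Fin k → ℕ) → Fin r → ℕ}
    (ht : NXV t) : NX (fun x a => f (t x a)) := by
  choose s hs es using ht
  refine ⟨fun v => f (fun i => s i v), NF.comp hf hs, fun x a => ?_⟩
  show f (t x a) = f (fun i => s i (Fin.cons x.length a))
  congr 1
  funext i
  exact es i x a

theorem NPX.app {P : (Fin r → ℕ) → Prop} (hP : NP P) {t : List Bool → (Fin k → ℕ) → Fin r → ℕ}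
    (ht : NXV t) : NPX (fun x a => P (t x a)) := by
  choose s hs es using ht
  refine ⟨fun v => P (fun i => s i v), NP.comp hP hs, fun x a => ?_⟩
  have e : t x a = fun i => s i (Fin.cons x.length a) := by
    funext i
    exact es i x a
  show P (t x a) ↔ P (fun i => s i (Fin.cons x.length a))
  rw [e]

/-! ### Vectors -/

theorem NXV.nil : NXV (fun _ (_ : Fin k → ℕ) => (![] : Fin 0 → ℕ)) := fun i => i.elim0

theorem NXV.cons {t0 : List Bool → (Fin k → ℕ) → ℕ} {t : List Bool → (Fin k → ℕ) → Fin r → ℕ}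
    (h0 : NX t0) (h : NXV t) : NXV (fun x a => Matrix.vecCons (t0 x a) (t x a)) := by
  intro i
  refine Fin.cases ?_ (fun j => ?_) i
  · exact h0
  · exact h j

theorem NXV.fcons {t0 : List Bool → (Fin k → ℕ) → ℕ} {t : List Bool → (Fin k → ℕ) → Fin r → ℕ}
    (h0 : NX t0) (h : NXV t) :
    NXV (fun x a => (Fin.cons (t0 x a) (t x a) : Fin (r + 1) → ℕ)) := by
  intro i
  refine Fin.cases ?_ (fun j => ?_) i
  · exact h0
  · exact h j

theorem NXV.id : NXV (fun _ (a : Fin k → ℕ) => a) := fun i => NX.proj i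

theorem NXV.tail {t : List Bool → (Fin k → ℕ) → Fin (r + 1) → ℕ} (h : NXV t) :
    NXV (fun x a => Fin.tail (t x a)) := fun i => h i.succ

theorem NXV.get {t : List Bool → (Fin k → ℕ) → Fin r → ℕ} (h : NXV t) (i : Fin r) :
    NX (fun x a => t x a i) := h i

/-- Substitution. -/
theorem NX.subst {f : List Bool → (Fin r → ℕ) → ℕ} (hf : NX f)
    {t : List Bool → (Fin k → ℕ) → Fin r → ℕ} (ht : NXV t) : NX (fun x a => f x (t x a)) := by
  obtain ⟨s, hs, es⟩ := hf
  refine (NX.app hs (NXV.fcons NX.len ht)).congr (fun x a => ?_)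
  exact (es x (t x a)).symm

theorem NPX.subst {P : List Bool → (Fin r → ℕ) → Prop} (hP : NPX P)
    {t : List Bool → (Fin k → ℕ) → Fin r → ℕ} (ht : NXV t) : NPX (fun x a => P x (t x a)) := by
  obtain ⟨s, hs, es⟩ := hP
  refine (NPX.app hs (NXV.fcons NX.len ht)).congr (fun x a => ?_)
  exact (es x (t x a)).symm

theorem NXV.subst {u : List Bool → (Fin r → ℕ) → Fin l → ℕ} (hu : NXV u)
    {t : List Bool → (Fin k → ℕ) → Fin r → ℕ} (ht : NXV t) : NXV (fun x a => u x (t x a)) :=
  fun i => NX.subst (hu i) ht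

/-! ### Applications of numeric functions of few variables -/

theorem NX.app0 {f : ℕ → ℕ} (hf : NF (fun v : Fin 1 → ℕ => f (v 0))) :
    NX (fun x (_ : Fin k → ℕ) => f x.length) :=
  NX.app hf (NXV.cons NX.len NXV.nil)

theorem NX.app1 {f : ℕ → ℕ} (hf : NF (fun v : Fin 1 → ℕ => f (v 0)))
    {t : List Bool → (Fin k → ℕ) → ℕ} (ht : NX t) : NX (fun x a => f (t x a)) :=
  NX.app hf (NXV.cons ht NXV.nil)

theorem NX.app2 {f : ℕ → ℕ → ℕ} (hf : NF (fun v : Fin 2 → ℕ => f (v 0) (v 1)))
    {t u : List Bool → (Fin k → ℕ) → ℕ} (ht : NX t) (hu : NX u) :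
    NX (fun x a => f (t x a) (u x a)) :=
  NX.app hf (NXV.cons ht (NXV.cons hu NXV.nil))

theorem NX.app3 {f : ℕ → ℕ → ℕ → ℕ} (hf : NF (fun v : Fin 3 → ℕ => f (v 0) (v 1) (v 2)))
    {t u w : List Bool → (Fin k → ℕ) → ℕ} (ht : NX t) (hu : NX u) (hw : NX w) :
    NX (fun x a => f (t x a) (u x a) (w x a)) :=
  NX.app hf (NXV.cons ht (NXV.cons hu (NXV.cons hw NXV.nil)))

theorem NX.app4 {f : ℕ → ℕ → ℕ → ℕ → ℕ}
    (hf : NF (fun v : Fin 4 → ℕ => f (v 0) (v 1) (v 2) (v 3)))
    {t u w z : List Bool → (Fin k → ℕ) → ℕ} (ht : NX t) (hu : NX u) (hw : NX w) (hz : NX z) :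
    NX (fun x a => f (t x a) (u x a) (w x a) (z x a)) :=
  NX.app hf (NXV.cons ht (NXV.cons hu (NXV.cons hw (NXV.cons hz NXV.nil))))

/-! ### Arithmetic -/

section arith

variable {f g h : List Bool → (Fin k → ℕ) → ℕ}

theorem NX.add (hf : NX f) (hg : NX g) : NX (fun x a => f x a + g x a) :=
  NX.app2 (f := fun u v => u + v) (LF.add (LF.proj 0) (LF.proj 1)) hf hg

theorem NX.sub (hf : NX f) (hg : NX g) : NX (fun x a => f x a - g x a) :=
  NX.app2 (f := fun u v => u - v) (LF.sub (LF.proj 0) (LF.proj 1)) hf hg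

theorem NX.mul (hf : NX f) (hg : NX g) : NX (fun x a => f x a * g x a) :=
  NX.app2 (f := fun u v => u * v) (LF.mul (LF.proj 0) (LF.proj 1)) hf hg

theorem NX.div (hf : NX f) (hg : NX g) : NX (fun x a => f x a / g x a) :=
  NX.app2 (f := fun u v => u / v) (LF.div (LF.proj 0) (LF.proj 1)) hf hg

theorem NX.mod (hf : NX f) (hg : NX g) : NX (fun x a => f x a % g x a) :=
  NX.app2 (f := fun u v => u % v) (LF.mod (LF.proj 0) (LF.proj 1)) hf hg

theorem NX.min (hf : NX f) (hg : NX g) : NX (fun x a => min (f x a) (g x a)) :=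
  NX.app2 (f := fun u v => Min.min u v) (LF.min (LF.proj 0) (LF.proj 1)) hf hg

theorem NX.max (hf : NX f) (hg : NX g) : NX (fun x a => max (f x a) (g x a)) :=
  NX.app2 (f := fun u v => Max.max u v) (LF.max (LF.proj 0) (LF.proj 1)) hf hg

theorem NX.powConst (hf : NX f) (c : ℕ) : NX (fun x a => f x a ^ c) :=
  NX.app1 (f := fun u => u ^ c) (LF.powConst (LF.proj 0) c) hf

theorem NX.log2 (hf : NX f) : NX (fun x a => Nat.log 2 (f x a)) :=
  NX.app1 (f := fun u => Nat.log 2 u) (LF.log2 (LF.proj 0)) hf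

theorem NX.lam (hf : NX f) : NX (fun x a => lam (f x a)) :=
  NX.app1 (f := fun u => AC.lam u) (LF.log2 (LF.add (LF.proj 0) (LF.const 2))) hf

/-- Division by a power; the power may be large. -/
theorem NX.divPow (hf : NX f) (hg : NX g) (hh : NX h) : NX (fun x a => f x a / g x a ^ h x a) :=
  NX.app3 (f := fun u v w => u / v ^ w) (LF.divPow (LF.proj 1) (LF.proj 0) (LF.proj 2)) hf hg hh

/-- Digits. -/
theorem NX.dig (hf : NX f) (hg : NX g) (hh : NX h) :
    NX (fun x a => f x a / g x a ^ h x a % g x a) :=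
  NX.mod (NX.divPow hf hg hh) hg

/-- Powers, cut off. -/
theorem NX.powMin (hf : NX f) (hg : NX g) (hh : NX h) :
    NX (fun x a => Min.min (f x a ^ g x a) (h x a + 1)) :=
  NX.app3 (f := fun u v w => Min.min (u ^ v) (w + 1))
    (LF.powMin (LF.proj 0) (LF.proj 1) (LF.proj 2)) hf hg hh

/-- Powers which are bounded by a numeric function. -/
theorem NX.pow (hf : NX f) (hg : NX g) (hh : NX h) (hb : ∀ x a, f x a ^ g x a ≤ h x a) :
    NX (fun x a => f x a ^ g x a) :=
  (NX.powMin hf hg hh).congr (fun x a => min_eq_left ((hb x a).trans (Nat.le_succ _)))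

theorem NX.succ (hf : NX f) : NX (fun x a => f x a + 1) := NX.add hf (NX.const 1)

/-- The bound of the quantifiers. -/
theorem NX.bd (e : ℕ) : NX (fun x (_ : Fin k → ℕ) => (x.length + 2) ^ e) :=
  NX.powConst (NX.add NX.len (NX.const 2)) e

theorem NPX.le (hf : NX f) (hg : NX g) : NPX (fun x a => f x a ≤ g x a) :=
  NPX.app (P := fun v : Fin 2 → ℕ => v 0 ≤ v 1) (LFP.le (LF.proj 0) (LF.proj 1))
    (NXV.cons hf (NXV.cons hg NXV.nil))

theorem NPX.lt (hf : NX f) (hg : NX g) : NPX (fun x a => f x a < g x a) :=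
  NPX.app (P := fun v : Fin 2 → ℕ => v 0 < v 1) (LFP.lt (LF.proj 0) (LF.proj 1))
    (NXV.cons hf (NXV.cons hg NXV.nil))

theorem NPX.eq (hf : NX f) (hg : NX g) : NPX (fun x a => f x a = g x a) :=
  NPX.app (P := fun v : Fin 2 → ℕ => v 0 = v 1) (LFP.eq (LF.proj 0) (LF.proj 1))
    (NXV.cons hf (NXV.cons hg NXV.nil))

theorem NPX.dvd (hf : NX f) (hg : NX g) : NPX (fun x a => f x a ∣ g x a) :=
  (NPX.eq (NX.mod hg hf) (NX.const 0)).congr (fun _ _ => (Nat.dvd_iff_mod_eq_zero).symm)

end arith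

section logic

variable {P Q : List Bool → (Fin k → ℕ) → Prop}

theorem NPX.not (h : NPX P) : NPX (fun x a => ¬ P x a) := by
  obtain ⟨s, hs, es⟩ := h
  exact ⟨fun v => ¬ s v, LFP.not hs, fun x a => not_congr (es x a)⟩

theorem NPX.and (h : NPX P) (h' : NPX Q) : NPX (fun x a => P x a ∧ Q x a) := by
  obtain ⟨s, hs, es⟩ := h
  obtain ⟨s', hs', es'⟩ := h'
  exact ⟨fun v => s v ∧ s' v, LFP.and hs hs', fun x a => and_congr (es x a) (es' x a)⟩

theorem NPX.or (h : NPX P) (h' : NPX Q) : NPX (fun x a => P x a ∨ Q x a) := by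
  obtain ⟨s, hs, es⟩ := h
  obtain ⟨s', hs', es'⟩ := h'
  exact ⟨fun v => s v ∨ s' v, LFP.or hs hs', fun x a => or_congr (es x a) (es' x a)⟩

theorem NPX.imp (h : NPX P) (h' : NPX Q) : NPX (fun x a => P x a → Q x a) :=
  (NPX.or (NPX.not h) h').congr (fun _ _ => by (clear * -; tauto))

theorem NPX.iff (h : NPX P) (h' : NPX Q) : NPX (fun x a => (P x a ↔ Q x a)) :=
  (NPX.and (NPX.imp h h') (NPX.imp h' h)).congr (fun _ _ => by (clear * -; tauto))

theorem NPX.ne {f g : List Bool → (Fin k → ℕ) → ℕ} (hf : NX f) (hg : NX g) :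
    NPX (fun x a => f x a ≠ g x a) := NPX.not (NPX.eq hf hg)

theorem NPX.prop (c : Prop) : NPX (fun _ (_ : Fin k → ℕ) => c) := by
  by_cases hc : c
  · exact (NPX.eq (NX.const 0) (NX.const 0)).congr (fun _ _ => by simp [hc])
  · exact (NPX.eq (NX.const 0) (NX.const 1)).congr (fun _ _ => by simp [hc])

theorem NX.ite [∀ x a, Decidable (P x a)] (h : NPX P) {f g : List Bool → (Fin k → ℕ) → ℕ}
    (hf : NX f) (hg : NX g) : NX (fun x a => if P x a then f x a else g x a) := by
  classical
  obtain ⟨s, hs, es⟩ := h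
  obtain ⟨f', hf', ef⟩ := hf
  obtain ⟨g', hg', eg⟩ := hg
  refine ⟨fun v => if s v then f' v else g' v, LF.ite hs hf' hg', fun x a => ?_⟩
  by_cases hp : P x a
  · have h2 := (es x a).1 hp
    simp only [hp, h2, if_true]
    exact ef x a
  · have h2 : ¬ s (Fin.cons x.length a) := fun h3 => hp ((es x a).2 h3)
    simp only [hp, h2, if_false]
    exact eg x a

theorem NX.ind (h : NPX P) : NX (fun x a => P313.ind (P x a)) := by
  classical
  exact (NX.ite h (NX.const 1) (NX.const 0)).congr (fun x a => (ind_eq_ite _).symm)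

end logic

/-- Exchanging the length and the first variable. -/
theorem cons_swap (n i : ℕ) (a : Fin k → ℕ) :
    (fun j => (Fin.cons i (Fin.cons n a : Fin (k + 1) → ℕ) : Fin (k + 2) → ℕ)
      (Equiv.swap 0 1 j)) = (Fin.cons n (Fin.cons i a : Fin (k + 1) → ℕ) : Fin (k + 2) → ℕ) := by
  funext j
  refine Fin.cases ?_ (fun j' => ?_) j
  · rw [Equiv.swap_apply_left]; rfl
  · refine Fin.cases ?_ (fun j'' => ?_) j'
    · show (Fin.cons i (Fin.cons n a : Fin (k + 1) → ℕ) : Fin (k + 2) → ℕ)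
        (Equiv.swap 0 1 1) = i
      rw [Equiv.swap_apply_right]; rfl
    · have h1 : Equiv.swap (0 : Fin (k + 2)) 1 j''.succ.succ = j''.succ.succ :=
        Equiv.swap_apply_of_ne_of_ne (Fin.succ_ne_zero _)
          (fun h => by rw [Fin.ext_iff] at h; simp at h)
      rw [h1]
      rfl

theorem NX.sum {n : List Bool → (Fin k → ℕ) → ℕ} {f : List Bool → ℕ → (Fin k → ℕ) → ℕ}
    (hn : NX n) (hf : NX (fun x (v : Fin (k + 1) → ℕ) => f x (v 0) (Fin.tail v))) :
    NX (fun x a => ∑ i ∈ range (n x a), f x i a) := by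
  obtain ⟨n', hn', en⟩ := hn
  obtain ⟨f', hf', ef⟩ := hf
  have h1 : NF (fun w : Fin (k + 2) → ℕ => f' (fun j => w (Equiv.swap 0 1 j))) :=
    NF.comp hf' (fun j => NF.proj _)
  refine ⟨fun v => ∑ i ∈ range (n' v), f' (fun j => (Fin.cons i v : Fin (k + 2) → ℕ)
    (Equiv.swap 0 1 j)), LF.sum h1 hn', fun x a => ?_⟩
  simp only
  rw [← en]
  refine sum_congr rfl fun i _ => ?_
  rw [cons_swap]
  exact ef x (Fin.cons i a)

theorem NPX.all {n : List Bool → (Fin k → ℕ) → ℕ} {P : List Bool → ℕ → (Fin k → ℕ) → Prop}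
    (hn : NX n) (hP : NPX (fun x (v : Fin (k + 1) → ℕ) => P x (v 0) (Fin.tail v))) :
    NPX (fun x a => ∀ i < n x a, P x i a) := by
  obtain ⟨n', hn', en⟩ := hn
  obtain ⟨Q, hQ, eQ⟩ := hP
  have h1 : NP (fun w : Fin (k + 2) → ℕ => Q (fun j => w (Equiv.swap 0 1 j))) :=
    NP.comp hQ (fun j => NF.proj _)
  refine ⟨fun v => ∀ i < n' v, Q (fun j => (Fin.cons i v : Fin (k + 2) → ℕ)
    (Equiv.swap 0 1 j)), LFP.all h1 hn', fun x a => ?_⟩
  simp only
  rw [← en]
  refine forall_congr' fun i => forall_congr' fun _ => ?_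
  rw [cons_swap]
  exact eQ x (Fin.cons i a)

theorem NPX.ex {n : List Bool → (Fin k → ℕ) → ℕ} {P : List Bool → ℕ → (Fin k → ℕ) → Prop}
    (hn : NX n) (hP : NPX (fun x (v : Fin (k + 1) → ℕ) => P x (v 0) (Fin.tail v))) :
    NPX (fun x a => ∃ i < n x a, P x i a) :=
  (NPX.not (NPX.all (P := fun x i a => ¬ P x i a) hn (NPX.not hP))).congr
    (fun _ _ => by push Not; rfl)

/-! ### First-order operators -/

namespace FO

variable {F G : Op m k}

theorem congr (h : FO F) (e : ∀ x X a, F x X a ↔ G x X a) : FO G := by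
  have : F = G := by
    funext x X a
    exact propext (e x X a)
  exact this ▸ h

/-- Numeric predicates. -/
theorem ofNPX {P : List Bool → (Fin k → ℕ) → Prop} (h : NPX P) :
    FO (fun x _ a => P x a : Op m k) := by
  obtain ⟨Q, hQ, eQ⟩ := h
  exact (FO.num hQ).congr (fun x _ a => (eQ x a).symm)

theorem prop (c : Prop) : FO (fun _ _ _ => c : Op m k) := ofNPX (NPX.prop c)

theorem le {f g : List Bool → (Fin k → ℕ) → ℕ} (hf : NX f) (hg : NX g) :
    FO (fun x _ a => f x a ≤ g x a : Op m k) := ofNPX (NPX.le hf hg)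

theorem lt {f g : List Bool → (Fin k → ℕ) → ℕ} (hf : NX f) (hg : NX g) :
    FO (fun x _ a => f x a < g x a : Op m k) := ofNPX (NPX.lt hf hg)

theorem eq {f g : List Bool → (Fin k → ℕ) → ℕ} (hf : NX f) (hg : NX g) :
    FO (fun x _ a => f x a = g x a : Op m k) := ofNPX (NPX.eq hf hg)

/-- The oracle. -/
theorem orax {t : List Bool → (Fin k → ℕ) → Fin m → ℕ} (h : NXV t) :
    FO (fun x X a => X (t x a) : Op m k) := by
  choose s hs es using h
  refine (FO.ora hs).congr (fun x X a => ?_)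
  have e : t x a = fun i => s i (Fin.cons x.length a) := by
    funext i
    exact es i x a
  rw [e]

/-- Bits of the input. -/
theorem inpx {t : List Bool → (Fin k → ℕ) → ℕ} (h : NX t) :
    FO (fun x _ a => x[t x a]? = some true : Op m k) := by
  obtain ⟨s, hs, es⟩ := h
  exact (FO.inp hs).congr (fun x _ a => by rw [es])

theorem or (hF : FO F) (hG : FO G) : FO (fun x X a => F x X a ∨ G x X a) :=
  (FO.not (FO.and (FO.not hF) (FO.not hG))).congr (fun _ _ _ => by (clear * -; tauto))

theorem imp (hF : FO F) (hG : FO G) : FO (fun x X a => F x X a → G x X a) :=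
  (or (FO.not hF) hG).congr (fun _ _ _ => by (clear * -; tauto))

theorem iff (hF : FO F) (hG : FO G) : FO (fun x X a => (F x X a ↔ G x X a)) :=
  (FO.and (imp hF hG) (imp hG hF)).congr (fun _ _ _ => by (clear * -; tauto))

theorem ite {P : Op m k} [∀ x X a, Decidable (P x X a)] (hP : FO P) (hF : FO F) (hG : FO G) :
    FO (fun x X a => if P x X a then F x X a else G x X a) :=
  (FO.and (imp hP hF) (imp (FO.not hP) hG)).congr (fun x X a => by
    by_cases h : P x X a
    · simp [h]
    · simp [h])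

/-- Case distinction by a numeric condition. -/
theorem iten {P : List Bool → (Fin k → ℕ) → Prop} [∀ x a, Decidable (P x a)] (hP : NPX P)
    (hF : FO F) (hG : FO G) : FO (fun x X a => if P x a then F x X a else G x X a) :=
  ite (P := fun x _ a => P x a) (ofNPX hP) hF hG

/-- Universal quantification, the bound variable written directly. -/
theorem allb (e : ℕ) {F : List Bool → ((Fin m → ℕ) → Prop) → ℕ → (Fin k → ℕ) → Prop}
    (h : FO (fun x X (v : Fin (k + 1) → ℕ) => F x X (v 0) (Fin.tail v))) :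
    FO (fun x X a => ∀ b < (x.length + 2) ^ e, F x X b a) := FO.all e h

theorem exb (e : ℕ) {F : List Bool → ((Fin m → ℕ) → Prop) → ℕ → (Fin k → ℕ) → Prop}
    (h : FO (fun x X (v : Fin (k + 1) → ℕ) => F x X (v 0) (Fin.tail v))) :
    FO (fun x X a => ∃ b < (x.length + 2) ^ e, F x X b a) :=
  (FO.not (allb (F := fun x X b a => ¬ F x X b a) e (FO.not h))).congr
    (fun _ _ _ => by push Not; rfl)

/-- Substitution. -/
theorem subst' {F : Op m k} (h : FO F) : ∀ {l : ℕ} (s : Fin k → (Fin (l + 1) → ℕ) → ℕ),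
    (∀ i, NF (s i)) → FO (fun x X a => F x X (fun i => s i (Fin.cons x.length a)) : Op m l) := by
  induction h with
  | @num k P h =>
    intro l s hs
    have h1 : NP (fun v : Fin (l + 1) → ℕ => P (fun i =>
        (Fin.cons (fun v => v 0) s : Fin (k + 1) → (Fin (l + 1) → ℕ) → ℕ) i v)) :=
      NP.comp h (fun i => by
        refine Fin.cases ?_ (fun j => ?_) i
        · exact NF.proj 0
        · exact hs j)
    refine (FO.num h1).congr (fun x X a => ?_)
    have e : (fun i => (Fin.cons (fun v => v 0) s : Fin (k + 1) → (Fin (l + 1) → ℕ) → ℕ) i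
        (Fin.cons x.length a)) = Fin.cons x.length (fun i => s i (Fin.cons x.length a)) := by
      funext i
      refine Fin.cases ?_ (fun j => ?_) i <;> rfl
    rw [e]
  | @inp k t h =>
    intro l s hs
    have h1 : NF (fun v : Fin (l + 1) → ℕ => t (fun i =>
        (Fin.cons (fun v => v 0) s : Fin (k + 1) → (Fin (l + 1) → ℕ) → ℕ) i v)) :=
      NF.comp h (fun i => by
        refine Fin.cases ?_ (fun j => ?_) i
        · exact NF.proj 0
        · exact hs j)
    refine (FO.inp h1).congr (fun x X a => ?_)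
    have e : (fun i => (Fin.cons (fun v => v 0) s : Fin (k + 1) → (Fin (l + 1) → ℕ) → ℕ) i
        (Fin.cons x.length a)) = Fin.cons x.length (fun i => s i (Fin.cons x.length a)) := by
      funext i
      refine Fin.cases ?_ (fun j => ?_) i <;> rfl
    rw [e]
  | @ora k t h =>
    intro l s hs
    have h1 : ∀ i, NF (fun v : Fin (l + 1) → ℕ => t i (fun i =>
        (Fin.cons (fun v => v 0) s : Fin (k + 1) → (Fin (l + 1) → ℕ) → ℕ) i v)) :=
      fun i => NF.comp (h i) (fun i => by
        refine Fin.cases ?_ (fun j => ?_) i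
        · exact NF.proj 0
        · exact hs j)
    refine (FO.ora h1).congr (fun x X a => ?_)
    have e : (fun i => (Fin.cons (fun v => v 0) s : Fin (k + 1) → (Fin (l + 1) → ℕ) → ℕ) i
        (Fin.cons x.length a)) = Fin.cons x.length (fun i => s i (Fin.cons x.length a)) := by
      funext i
      refine Fin.cases ?_ (fun j => ?_) i <;> rfl
    rw [e]
  | not _ ih => intro l s hs; exact FO.not (ih s hs)
  | and _ _ ih ih' => intro l s hs; exact FO.and (ih s hs) (ih' s hs)
  | @all k F e _ ih =>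
    intro l s hs
    have h1 := ih (l := l + 1) (Fin.cons (fun v => v 1)
      (fun i v => s i (Fin.cons (v 0) (fun j => v j.succ.succ)))) (fun i => by
        refine Fin.cases ?_ (fun j => ?_) i
        · exact NF.proj 1
        · refine (NF.comp (hs j) (s := Fin.cons (fun v => v 0) (fun j v => v j.succ.succ))
            (fun i => ?_)).congr (fun v => ?_)
          · refine Fin.cases ?_ (fun j => ?_) i
            · exact NF.proj 0
            · exact NF.proj j.succ.succ
          · show _ = s j (Fin.cons (v 0) (fun j => v j.succ.succ))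
            congr 1
            funext i
            refine Fin.cases ?_ (fun j => ?_) i <;> rfl)
    refine (FO.all e h1).congr (fun x X a => ?_)
    refine forall_congr' fun b => forall_congr' fun _ => ?_
    have e1 : (fun i => (Fin.cons (fun v : Fin (l + 1 + 1) → ℕ => v 1)
        (fun i v => s i (Fin.cons (v 0) (fun j => v j.succ.succ))) :
        Fin (k + 1) → (Fin (l + 1 + 1) → ℕ) → ℕ) i
        (Fin.cons x.length (Fin.cons b a : Fin (l + 1) → ℕ))) =
        Fin.cons b (fun i => s i (Fin.cons x.length a)) := by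
      funext i
      refine Fin.cases ?_ (fun j => ?_) i <;> rfl
    rw [e1]

/-- Substitution of numeric functions. -/
theorem subst (h : FO F) {t : List Bool → (Fin l → ℕ) → Fin k → ℕ} (ht : NXV t) :
    FO (fun x X a => F x X (t x a) : Op m l) := by
  choose s hs es using ht
  refine (subst' h s hs).congr (fun x X a => ?_)
  have e : t x a = fun i => s i (Fin.cons x.length a) := by
    funext i
    exact es i x a
  rw [e]

/-- A new variable with a numeric value. -/
theorem letb {t : List Bool → (Fin k → ℕ) → ℕ} (ht : NX t)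
    {F : List Bool → ((Fin m → ℕ) → Prop) → ℕ → (Fin k → ℕ) → Prop}
    (h : FO (fun x X (v : Fin (k + 1) → ℕ) => F x X (v 0) (Fin.tail v))) :
    FO (fun x X a => F x X (t x a) a) :=
  subst h (t := fun x a => Fin.cons (t x a) a) (NXV.fcons ht NXV.id)

/-- Universal quantification below a numeric function. -/
theorem allLt (e : ℕ) {T : List Bool → (Fin k → ℕ) → ℕ} (hT : NX T)
    (hb : ∀ x a, T x a ≤ (x.length + 2) ^ e)
    {F : List Bool → ((Fin m → ℕ) → Prop) → ℕ → (Fin k → ℕ) → Prop}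
    (h : FO (fun x X (v : Fin (k + 1) → ℕ) => F x X (v 0) (Fin.tail v))) :
    FO (fun x X a => ∀ b < T x a, F x X b a) := by
  have h1 : NX (fun x (v : Fin (k + 1) → ℕ) => T x (Fin.tail v)) :=
    NX.subst hT (NXV.tail NXV.id)
  refine (allb (F := fun x X b a => b < T x a → F x X b a) e
    (imp (lt (NX.proj 0) h1) h)).congr (fun x X a => ?_)
  exact ⟨fun h2 b hb' => h2 b (lt_of_lt_of_le hb' (hb x a)) hb', fun h2 b _ hb' => h2 b hb'⟩

theorem exLt (e : ℕ) {T : List Bool → (Fin k → ℕ) → ℕ} (hT : NX T)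
    (hb : ∀ x a, T x a ≤ (x.length + 2) ^ e)
    {F : List Bool → ((Fin m → ℕ) → Prop) → ℕ → (Fin k → ℕ) → Prop}
    (h : FO (fun x X (v : Fin (k + 1) → ℕ) => F x X (v 0) (Fin.tail v))) :
    FO (fun x X a => ∃ b < T x a, F x X b a) :=
  (FO.not (allLt (F := fun x X b a => ¬ F x X b a) e hT hb (FO.not h))).congr
    (fun _ _ _ => by push Not; rfl)

theorem le_bd (c : ℕ) (x : List Bool) : c ≤ (x.length + 2) ^ c :=
  calc c ≤ 2 ^ c := Nat.lt_two_pow_self.le
    _ ≤ (x.length + 2) ^ c := Nat.pow_le_pow_left (by omega) c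

/-- Quantification over a constant range. -/
theorem allC (c : ℕ) {F : List Bool → ((Fin m → ℕ) → Prop) → ℕ → (Fin k → ℕ) → Prop}
    (h : FO (fun x X (v : Fin (k + 1) → ℕ) => F x X (v 0) (Fin.tail v))) :
    FO (fun x X a => ∀ b < c, F x X b a) :=
  allLt c (NX.const c) (fun x _ => le_bd c x) h

theorem exC (c : ℕ) {F : List Bool → ((Fin m → ℕ) → Prop) → ℕ → (Fin k → ℕ) → Prop}
    (h : FO (fun x X (v : Fin (k + 1) → ℕ) => F x X (v 0) (Fin.tail v))) :
    FO (fun x X a => ∃ b < c, F x X b a) :=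
  exLt c (NX.const c) (fun x _ => le_bd c x) h

/-- Finite conjunctions. -/
theorem allFin : ∀ {r : ℕ} {F : Fin r → Op m k}, (∀ i, FO (F i)) →
    FO (fun x X a => ∀ i, F i x X a)
  | 0, _, _ => (prop True).congr (fun _ _ _ => by simp)
  | r + 1, F, h => (FO.and (h 0) (allFin (fun i => h i.succ))).congr
      (fun _ _ _ => by rw [Fin.forall_fin_succ])

/-- Replacing the oracle by an operator. -/
theorem bind {m' : ℕ} {G : Op m' k} (hG : FO G) {H : Op m m'} (hH : FO H) :
    FO (fun x X a => G x (fun v => H x X v) a : Op m k) := by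
  induction hG with
  | num h => exact FO.num h
  | inp h => exact FO.inp h
  | ora h => exact subst' hH _ h
  | not _ ih => exact FO.not ih
  | and _ _ ih ih' => exact FO.and ih ih'
  | all e _ ih => exact FO.all e ih

/-- Replacing the oracle by an oracle on other numbers. -/
theorem mapOra {m' : ℕ} {G : Op m' k} (hG : FO G) {t : List Bool → (Fin m' → ℕ) → Fin m → ℕ}
    (ht : NXV t) : FO (fun x X a => G x (fun v => X (t x v)) a : Op m k) :=
  bind hG (orax ht)

/-! ### The input tape -/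

theorem symc_eq (x : List Bool) (p s : ℕ) : symc x p = s ↔
    (s = 0 ∧ p = 0) ∨ (s = 1 ∧ p ≠ 0 ∧ x.length ≤ p - 1) ∨
    (s = 2 ∧ p ≠ 0 ∧ p - 1 < x.length ∧ ¬ x[p - 1]? = some true) ∨
    (s = 3 ∧ p ≠ 0 ∧ x[p - 1]? = some true) := by
  unfold symc inSym
  by_cases hp : p = 0
  · simp only [hp, if_true]
    constructor
    · intro h; left; exact ⟨h.symm, trivial⟩
    · rintro (⟨h, _⟩ | ⟨_, h, _⟩ | ⟨_, h, _⟩ | ⟨_, h, _⟩)
      · exact h.symm
      · exact absurd rfl h
      · exact absurd rfl h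
      · exact absurd rfl h
  · rw [if_neg hp]
    rcases h : x[p - 1]? with _ | b
    · have h1 : x.length ≤ p - 1 := by rwa [List.getElem?_eq_none_iff] at h
      show 1 = s ↔ _
      constructor
      · rintro rfl
        exact Or.inr (Or.inl ⟨rfl, hp, h1⟩)
      · rintro (⟨_, h2⟩ | ⟨h2, _⟩ | ⟨_, _, h2, _⟩ | ⟨_, _, h2⟩)
        · exact absurd h2 hp
        · exact h2.symm
        · exact absurd h2 (not_lt.2 h1)
        · exact absurd h2 (by simp)
    · have h1 : p - 1 < x.length := by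
        by_contra h2
        rw [List.getElem?_eq_none_iff.2 (not_lt.1 h2)] at h
        exact absurd h (by simp)
      cases b
      · show 2 = s ↔ _
        constructor
        · rintro rfl
          exact Or.inr (Or.inr (Or.inl ⟨rfl, hp, h1, by simp⟩))
        · rintro (⟨_, h2⟩ | ⟨_, _, h2⟩ | ⟨h2, _⟩ | ⟨_, _, h2⟩)
          · exact absurd h2 hp
          · exact absurd h1 (not_lt.2 h2)
          · exact h2.symm
          · exact absurd h2 (by simp)
      · show 3 = s ↔ _
        constructor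
        · rintro rfl
          exact Or.inr (Or.inr (Or.inr ⟨rfl, hp, rfl⟩))
        · rintro (⟨_, h2⟩ | ⟨_, _, h2⟩ | ⟨_, _, _, h2⟩ | ⟨h2, _⟩)
          · exact absurd h2 hp
          · exact absurd h1 (not_lt.2 h2)
          · exact absurd rfl h2
          · exact h2.symm

/-- The symbol in a cell of the input tape. -/
theorem sym {t s : List Bool → (Fin k → ℕ) → ℕ} (ht : NX t) (hs : NX s) :
    FO (fun x _ a => symc x (t x a) = s x a : Op m k) := by
  have h0 : NX (fun x a => t x a - 1) := NX.sub ht (NX.const 1)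
  have h1 : FO (fun x _ a => x[t x a - 1]? = some true : Op m k) := inpx h0
  have h2 := NPX.ne ht (NX.const 0)
  refine (or (ofNPX (NPX.and (NPX.eq hs (NX.const 0)) (NPX.eq ht (NX.const 0))))
    (or (ofNPX (NPX.and (NPX.eq hs (NX.const 1)) (NPX.and h2 (NPX.le NX.len h0))))
    (or (FO.and (ofNPX (NPX.eq hs (NX.const 2))) (FO.and (ofNPX h2)
      (FO.and (ofNPX (NPX.lt h0 NX.len)) (FO.not h1))))
    (FO.and (ofNPX (NPX.eq hs (NX.const 3))) (FO.and (ofNPX h2) h1))))).congr
    (fun x X a => (symc_eq x _ _).symm)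

theorem symc_lt (x : List Bool) (p : ℕ) : symc x p < 4 := by
  unfold symc
  split <;> omega

/-- A new variable whose value is the symbol in a cell of the input tape. -/
theorem withSym {t : List Bool → (Fin k → ℕ) → ℕ} (ht : NX t)
    {F : List Bool → ((Fin m → ℕ) → Prop) → ℕ → (Fin k → ℕ) → Prop}
    (h : FO (fun x X (v : Fin (k + 1) → ℕ) => F x X (v 0) (Fin.tail v))) :
    FO (fun x X a => F x X (symc x (t x a)) a) := by
  have h1 : NX (fun x (v : Fin (k + 1) → ℕ) => t x (Fin.tail v)) :=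
    NX.subst ht (NXV.tail NXV.id)
  refine (exC (F := fun x X b a => symc x (t x a) = b ∧ F x X b a) 4
    (FO.and (sym h1 (NX.proj 0)) h)).congr (fun x X a => ?_)
  constructor
  · rintro ⟨b, _, hb, hF⟩
    rw [hb]; exact hF
  · intro hF
    exact ⟨_, symc_lt x _, rfl, hF⟩

end FO

/-! ### Iteration -/

theorem it_zero {F : Op m m} {e : ℕ} {x : List Bool} {a : Fin m → ℕ} : ¬ it F e x 0 a :=
  fun h => h

theorem it_succ {F : Op m m} {e : ℕ} {x : List Bool} {t : ℕ} {a : Fin m → ℕ} :
    it F e x (t + 1) a ↔ (∀ i, a i < (x.length + 2) ^ e) ∧ F x (it F e x t) a := Iff.rfl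

theorem it_succ_of {F : Op m m} {e : ℕ} {x : List Bool} {t : ℕ} {a : Fin m → ℕ}
    (ha : ∀ i, a i < (x.length + 2) ^ e) : it F e x (t + 1) a ↔ F x (it F e x t) a :=
  ⟨fun h => h.2, fun h => ⟨ha, h⟩⟩

end Vale.Agent.P313.AC
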